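import Mathlib

open MeasureTheory Set

namespace Vale.Agent.Lib.P248.H17

/-- A Bernoulli-type inequality for nonnegative reals. -/
theorem add_pow_ge {x y : ℝ} (hx : 0 ≤ x) (hy : 0 ≤ y) (m : ℕ) :
    y ^ (m + 1) + ((m : ℝ) + 1) * x * y ^ m ≤ (x + y) ^ (m + 1) := by
  induction m with
  | zero =>
    simp only [zero_add, pow_one, pow_zero, Nat.cast_zero, mul_one, one_mul]
    linarith
  | succ k ih =>
    have h1 : 0 ≤ x + y := by positivity
    have h2 := mul_le_mul_of_nonneg_right ih h1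
    have h3 : 0 ≤ ((k : ℝ) + 1) * x ^ 2 * y ^ k := by positivity
    have h4 : (y ^ (k + 1) + ((k : ℝ) + 1) * x * y ^ k) * (x + y)
        = y ^ (k + 1 + 1) + ((k : ℝ) + 1 + 1) * x * y ^ (k + 1)
          + ((k : ℝ) + 1) * x ^ 2 * y ^ k := by
      ring
    have h5 : (x + y) ^ (k + 1 + 1) = (x + y) ^ (k + 1) * (x + y) := pow_succ _ _
    push_cast
    linarith

/-- The one-variable inequality for a concave, antitone, nonnegative profile on `[0, h]`. -/
theorem cone_ineq {h : ℝ} (hh : 0 < h) {a : ℝ → ℝ}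
    (hc : ConcaveOn ℝ (Icc 0 h) a) (hanti : AntitoneOn a (Icc 0 h))
    (hpos : ∀ t ∈ Icc 0 h, 0 ≤ a t) (m : ℕ) {t0 r0 : ℝ} (ht0 : t0 ∈ Icc 0 h)
    (hr0 : 0 ≤ r0) (hr0' : r0 ≤ a t0) :
    t0 * a 0 ^ (m + 1) + (m + 1) * r0 * (∫ t in (0:ℝ)..h, a t ^ m) ≤
      (m + 2) * ∫ t in (0:ℝ)..h, a t ^ (m + 1) := by
  have h0mem : (0:ℝ) ∈ Icc 0 h := ⟨le_refl _, hh.le⟩
  have hhmem : h ∈ Icc 0 h := ⟨hh.le, le_refl _⟩
  have hpow_anti : ∀ k : ℕ, AntitoneOn (fun t => a t ^ k) (Icc 0 h) := by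
    intro k x hx y hy hxy
    exact pow_le_pow_left₀ (hpos y hy) (hanti hx hy hxy) k
  have hint : ∀ (k : ℕ) (u v : ℝ), u ∈ Icc 0 h → v ∈ Icc 0 h →
      IntervalIntegrable (fun t => a t ^ k) volume u v := by
    intro k u v hu hv
    exact ((hpow_anti k).mono (uIcc_subset_Icc hu hv)).intervalIntegrable
  set I1 := ∫ t in (0:ℝ)..h, a t ^ (m + 1) with hI1
  set I0 := ∫ t in (0:ℝ)..h, a t ^ m with hI0
  have hI1nn : 0 ≤ I1 :=
    intervalIntegral.integral_nonneg hh.le (fun u hu => pow_nonneg (hpos u hu) _)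
  have key : ∀ l : ℝ, 0 ≤ l → l < 1 →
      t0 * (a 0 * (1 - (1 - l) * t0 / h)) ^ (m + 1) + ((m : ℝ) + 1) * r0 * l ^ (m + 1) * I0
        ≤ ((m : ℝ) + 2) * I1 := by
    intro l hl0 hl1
    have hl1' : (0:ℝ) ≤ 1 - l := by linarith
    set c := (1 - l) * t0 with hcdef
    have hc0 : 0 ≤ c := mul_nonneg hl1' ht0.1
    have hct0 : c ≤ t0 := by
      have : (1 - l) * t0 ≤ 1 * t0 := mul_le_mul_of_nonneg_right (by linarith) ht0.1
      linarith
    have hch : c ≤ h := hct0.trans ht0.2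
    have hd : c + l * h ≤ h := by
      have : (1 - l) * t0 ≤ (1 - l) * h := mul_le_mul_of_nonneg_left ht0.2 hl1'
      linarith
    have hd0 : 0 ≤ c + l * h := add_nonneg hc0 (mul_nonneg hl0 hh.le)
    have hcmem : c ∈ Icc 0 h := ⟨hc0, hch⟩
    have hdmem : c + l * h ∈ Icc 0 h := ⟨hd0, hd⟩
    have hsplit : I1 = (∫ t in (0:ℝ)..c, a t ^ (m + 1)) + (∫ t in c..(c + l * h), a t ^ (m + 1))
        + ∫ t in (c + l * h)..h, a t ^ (m + 1) := by
      rw [intervalIntegral.integral_add_adjacent_intervals (hint _ _ _ h0mem hcmem)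
          (hint _ _ _ hcmem hdmem),
        intervalIntegral.integral_add_adjacent_intervals (hint _ _ _ h0mem hdmem)
          (hint _ _ _ hdmem hhmem)]
    have hP3 : 0 ≤ ∫ t in (c + l * h)..h, a t ^ (m + 1) :=
      intervalIntegral.integral_nonneg hd
        (fun u hu => pow_nonneg (hpos u ⟨hd0.trans hu.1, hu.2⟩) _)
    have hK1 : 0 ≤ 1 - c / h := by
      rw [sub_nonneg, div_le_one hh]; exact hch
    have hac : a 0 * (1 - c / h) ≤ a c := by
      have h2 : 0 ≤ c / h := div_nonneg hc0 hh.le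
      have h3 := hc.2 h0mem hhmem hK1 h2 (by ring)
      have h4 : (1 - c / h) • (0:ℝ) + (c / h) • h = c := by
        rw [smul_zero, zero_add, smul_eq_mul, div_mul_cancel₀ c hh.ne']
      rw [h4] at h3
      simp only [smul_eq_mul] at h3
      have h5 : 0 ≤ c / h * a h := mul_nonneg h2 (hpos h hhmem)
      linarith
    have hK0 : 0 ≤ a 0 * (1 - c / h) := mul_nonneg (hpos 0 h0mem) hK1
    have hP1 : c * (a 0 * (1 - c / h)) ^ (m + 1) ≤ ∫ t in (0:ℝ)..c, a t ^ (m + 1) := by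
      have h1 : ∫ _t in (0:ℝ)..c, (a 0 * (1 - c / h)) ^ (m + 1)
          = c * (a 0 * (1 - c / h)) ^ (m + 1) := by
        rw [intervalIntegral.integral_const]; simp
      rw [← h1]
      apply intervalIntegral.integral_mono_on hc0 intervalIntegrable_const
        (hint _ _ _ h0mem hcmem)
      intro x hx
      have hxmem : x ∈ Icc 0 h := ⟨hx.1, hx.2.trans hch⟩
      exact pow_le_pow_left₀ hK0 (hac.trans (hanti hxmem hcmem hx.2)) _
    have hP2 : l * (l ^ (m + 1) * I1 + ((m : ℝ) + 1) * (1 - l) * r0 * l ^ m * I0)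
        ≤ ∫ t in c..(c + l * h), a t ^ (m + 1) := by
      have h1 := intervalIntegral.smul_integral_comp_add_mul (a := (0:ℝ)) (b := h)
        (fun t => a t ^ (m + 1)) l c
      simp only [mul_zero, add_zero, smul_eq_mul] at h1
      rw [← h1]
      apply mul_le_mul_of_nonneg_left _ hl0
      have hg_int : IntervalIntegrable (fun t => l ^ (m + 1) * a t ^ (m + 1)
          + ((m : ℝ) + 1) * (1 - l) * r0 * l ^ m * a t ^ m) volume 0 h :=
        ((hint (m + 1) 0 h h0mem hhmem).const_mul _).add ((hint m 0 h h0mem hhmem).const_mul _)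
      have h2 : (∫ t in (0:ℝ)..h, (l ^ (m + 1) * a t ^ (m + 1)
          + ((m : ℝ) + 1) * (1 - l) * r0 * l ^ m * a t ^ m))
          = l ^ (m + 1) * I1 + ((m : ℝ) + 1) * (1 - l) * r0 * l ^ m * I0 := by
        rw [intervalIntegral.integral_add ((hint (m + 1) 0 h h0mem hhmem).const_mul _)
            ((hint m 0 h h0mem hhmem).const_mul _),
          intervalIntegral.integral_const_mul, intervalIntegral.integral_const_mul]
      rw [← h2]
      have hanti2 : AntitoneOn (fun t => a (c + l * t) ^ (m + 1)) (Icc 0 h) := by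
        intro x hx y hy hxy
        have hxm : c + l * x ∈ Icc 0 h :=
          ⟨add_nonneg hc0 (mul_nonneg hl0 hx.1),
            le_trans (by linarith [mul_le_mul_of_nonneg_left hx.2 hl0]) hd⟩
        have hym : c + l * y ∈ Icc 0 h :=
          ⟨add_nonneg hc0 (mul_nonneg hl0 hy.1),
            le_trans (by linarith [mul_le_mul_of_nonneg_left hy.2 hl0]) hd⟩
        exact hpow_anti (m + 1) hxm hym (by linarith [mul_le_mul_of_nonneg_left hxy hl0])
      have hf_int : IntervalIntegrable (fun t => a (c + l * t) ^ (m + 1)) volume 0 h := by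
        apply AntitoneOn.intervalIntegrable
        rw [uIcc_of_le hh.le]; exact hanti2
      apply intervalIntegral.integral_mono_on hh.le hg_int hf_int
      intro t ht
      have hat : 0 ≤ a t := hpos t ht
      have h3 := hc.2 ht0 ht hl1' hl0 (by ring)
      simp only [smul_eq_mul] at h3
      have h3' : (1 - l) * a t0 + l * a t ≤ a (c + l * t) := h3
      have h4 : (1 - l) * r0 ≤ (1 - l) * a t0 := mul_le_mul_of_nonneg_left hr0' hl1'
      have hx0 : 0 ≤ (1 - l) * r0 := mul_nonneg hl1' hr0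
      have hy0 : 0 ≤ l * a t := mul_nonneg hl0 hat
      have h5 := add_pow_ge hx0 hy0 m
      have h6 : ((1 - l) * r0 + l * a t) ^ (m + 1) ≤ a (c + l * t) ^ (m + 1) :=
        pow_le_pow_left₀ (add_nonneg hx0 hy0) (by linarith) _
      calc l ^ (m + 1) * a t ^ (m + 1) + ((m : ℝ) + 1) * (1 - l) * r0 * l ^ m * a t ^ m
          = (l * a t) ^ (m + 1) + ((m : ℝ) + 1) * ((1 - l) * r0) * (l * a t) ^ m := by ring
        _ ≤ ((1 - l) * r0 + l * a t) ^ (m + 1) := h5
        _ ≤ a (c + l * t) ^ (m + 1) := h6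
    have hbern : 1 - l ^ (m + 2) ≤ ((m : ℝ) + 2) * (1 - l) := by
      have h1 := one_add_mul_le_pow (show (-2 : ℝ) ≤ l - 1 by linarith) (m + 2)
      have h' : (1 + (l - 1)) = l := by ring
      rw [h'] at h1
      push_cast at h1
      linarith
    have hmain : (1 - l) * (t0 * (a 0 * (1 - c / h)) ^ (m + 1)
          + ((m : ℝ) + 1) * r0 * l ^ (m + 1) * I0)
        ≤ (1 - l) * (((m : ℝ) + 2) * I1) := by
      have e1 : (1 - l) * (t0 * (a 0 * (1 - c / h)) ^ (m + 1)
            + ((m : ℝ) + 1) * r0 * l ^ (m + 1) * I0)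
          = c * (a 0 * (1 - c / h)) ^ (m + 1)
            + l * (l ^ (m + 1) * I1 + ((m : ℝ) + 1) * (1 - l) * r0 * l ^ m * I0)
            - l ^ (m + 2) * I1 := by
        rw [hcdef]; ring
      have e2 : (1 - l ^ (m + 2)) * I1 ≤ ((m : ℝ) + 2) * (1 - l) * I1 :=
        mul_le_mul_of_nonneg_right hbern hI1nn
      rw [e1]
      linarith [hsplit, hP1, hP2, hP3, e2]
    exact le_of_mul_le_mul_left hmain (by linarith)
  have hF : Continuous (fun l : ℝ => t0 * (a 0 * (1 - (1 - l) * t0 / h)) ^ (m + 1)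
      + ((m : ℝ) + 1) * r0 * l ^ (m + 1) * I0) := by
    fun_prop
  have hlim := (hF.tendsto 1).mono_left (nhdsWithin_le_nhds (s := Iio 1))
  have hev : ∀ᶠ l in nhdsWithin (1:ℝ) (Iio 1),
      t0 * (a 0 * (1 - (1 - l) * t0 / h)) ^ (m + 1) + ((m : ℝ) + 1) * r0 * l ^ (m + 1) * I0
        ≤ ((m : ℝ) + 2) * I1 := by
    filter_upwards [Ioo_mem_nhdsLT (show (0:ℝ) < 1 by norm_num)] with l hl
    exact key l hl.1.le hl.2
  have hfin := le_of_tendsto hlim hev
  simp only [sub_self, zero_mul, zero_div, sub_zero, mul_one, one_pow] at hfin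
  exact hfin

end Vale.Agent.Lib.P248.H17
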