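import Mathlib
import Vale.Agent.Lib.P248.helper1.ConeDefs

/-!
# P248, pool job SPB (copy by helper17): change of variables for the projective map

For `z` and a measurable set `T` on which `<z, y> < 1`, the image of `T` under
`y ↦ (1 - <z, y>)⁻¹ • y` has volume `∫ over T of (1 - <z, y>)^(-(m+1))`.
-/

namespace Vale.Agent.Lib.P248.H17Y

open MeasureTheory Set
open scoped ENNReal
open Vale.Agent.Lib.P248.H1

/-- The derivative of the projective map. -/
theorem hasFDerivAt_proj {m : ℕ} (z y : EuclideanSpace ℝ (Fin m)) (hy : inner ℝ z y < 1) :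
    HasFDerivAt (fun y : EuclideanSpace ℝ (Fin m) => (1 - inner ℝ z y)⁻¹ • y)
      ((1 - inner ℝ z y)⁻¹ • ContinuousLinearMap.id ℝ (EuclideanSpace ℝ (Fin m))
        + ((-((1 - inner ℝ z y) ^ 2)⁻¹) •
            ((0 : EuclideanSpace ℝ (Fin m) →L[ℝ] ℝ) - innerSL ℝ z)).smulRight y) y := by
  have h1 : HasFDerivAt (fun y : EuclideanSpace ℝ (Fin m) => inner ℝ z y) (innerSL ℝ z) y :=
    (innerSL ℝ z).hasFDerivAt
  have h2 : HasFDerivAt (fun y : EuclideanSpace ℝ (Fin m) => 1 - inner ℝ z y)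
      ((0 : EuclideanSpace ℝ (Fin m) →L[ℝ] ℝ) - innerSL ℝ z) y :=
    (hasFDerivAt_const (1 : ℝ) y).sub h1
  have hne : (1 - inner ℝ z y) ≠ 0 := by
    have : 0 < 1 - inner ℝ z y := by linarith
    exact this.ne'
  have h3 : HasFDerivAt (fun y : EuclideanSpace ℝ (Fin m) => (1 - inner ℝ z y)⁻¹)
      ((-((1 - inner ℝ z y) ^ 2)⁻¹) •
        ((0 : EuclideanSpace ℝ (Fin m) →L[ℝ] ℝ) - innerSL ℝ z)) y :=
    (hasDerivAt_inv hne).comp_hasFDerivAt y h2
  exact h3.fun_smul (hasFDerivAt_id y)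

/-- The determinant of the derivative of the projective map. -/
theorem det_proj {m : ℕ} (z y : EuclideanSpace ℝ (Fin m)) (hy : inner ℝ z y < 1) :
    ((1 - inner ℝ z y)⁻¹ • ContinuousLinearMap.id ℝ (EuclideanSpace ℝ (Fin m))
        + ((-((1 - inner ℝ z y) ^ 2)⁻¹) •
            ((0 : EuclideanSpace ℝ (Fin m) →L[ℝ] ℝ) - innerSL ℝ z)).smulRight y).det
      = (1 - inner ℝ z y)⁻¹ ^ (m + 1) := by
  have hpos : 0 < 1 - inner ℝ z y := by linarith
  have hne : (1 - inner ℝ z y) ≠ 0 := hpos.ne'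
  have e : (((1 - inner ℝ z y)⁻¹ • ContinuousLinearMap.id ℝ (EuclideanSpace ℝ (Fin m))
        + ((-((1 - inner ℝ z y) ^ 2)⁻¹) •
            ((0 : EuclideanSpace ℝ (Fin m) →L[ℝ] ℝ) - innerSL ℝ z)).smulRight y :
          EuclideanSpace ℝ (Fin m) →L[ℝ] EuclideanSpace ℝ (Fin m)) :
        EuclideanSpace ℝ (Fin m) →ₗ[ℝ] EuclideanSpace ℝ (Fin m))
      = (1 - inner ℝ z y)⁻¹ • LinearMap.transvection
          (((1 - inner ℝ z y)⁻¹ • (innerSL ℝ z : EuclideanSpace ℝ (Fin m) →L[ℝ] ℝ) :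
            EuclideanSpace ℝ (Fin m) →L[ℝ] ℝ) : EuclideanSpace ℝ (Fin m) →ₗ[ℝ] ℝ) y := by
    refine LinearMap.ext fun x => ?_
    show (1 - inner ℝ z y)⁻¹ • x + ((-((1 - inner ℝ z y) ^ 2)⁻¹) * (0 - inner ℝ z x)) • y
      = (1 - inner ℝ z y)⁻¹ • (x + ((1 - inner ℝ z y)⁻¹ * inner ℝ z x) • y)
    rw [smul_add, smul_smul]
    congr 2
    field_simp
    ring
  rw [ContinuousLinearMap.det, e, LinearMap.det_smul, LinearMap.transvection.det,
    finrank_euclideanSpace_fin]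
  show (1 - inner ℝ z y)⁻¹ ^ m * (1 + (1 - inner ℝ z y)⁻¹ * inner ℝ z y)
    = (1 - inner ℝ z y)⁻¹ ^ (m + 1)
  rw [pow_succ]
  congr 1
  field_simp
  ring

theorem volume_image_proj {m : ℕ} (z : EuclideanSpace ℝ (Fin m))
    (T : Set (EuclideanSpace ℝ (Fin m))) (hT : MeasurableSet T)
    (hlt : ∀ y ∈ T, inner ℝ z y < 1) :
    volume ((fun y : EuclideanSpace ℝ (Fin m) => (1 - inner ℝ z y)⁻¹ • y) '' T)
      = ∫⁻ y in T, ENNReal.ofReal ((1 - inner ℝ z y)⁻¹ ^ (m + 1)) := by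
  have hinj : InjOn (fun y : EuclideanSpace ℝ (Fin m) => (1 - inner ℝ z y)⁻¹ • y) T := by
    intro y hy y' hy' h
    have h' : (1 - inner ℝ z y)⁻¹ • y = (1 - inner ℝ z y')⁻¹ • y' := h
    have hs : 0 < 1 - inner ℝ z y := by linarith [hlt y hy]
    have hs' : 0 < 1 - inner ℝ z y' := by linarith [hlt y' hy']
    have h2 := congrArg (fun w => inner ℝ z w) h'
    simp only [inner_smul_right] at h2
    have ht : inner ℝ z y = inner ℝ z y' := by
      field_simp at h2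
      nlinarith
    rw [ht] at h'
    exact smul_right_injective _ (inv_ne_zero hs'.ne') h'
  have h := lintegral_abs_det_fderiv_eq_addHaar_image (μ := volume) hT
    (fun y hy => (hasFDerivAt_proj z y (hlt y hy)).hasFDerivWithinAt) hinj
  rw [← h]
  refine setLIntegral_congr_fun hT (fun y hy => ?_)
  have hs : 0 < 1 - inner ℝ z y := by linarith [hlt y hy]
  rw [det_proj z y (hlt y hy), abs_of_pos (pow_pos (inv_pos.2 hs) _)]

end Vale.Agent.Lib.P248.H17Y
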